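import Vale.Agent.P154.Anti.BoxNode
import Vale.Agent.P154.Mid.Q340Cert
import Vale.Agent.P154.Mid.Q340Scalar

/-!
# The windows between -17/50, -63/200 and -41/142

Generated glue from the box certificate to the node inequalities of the two windows.
-/

namespace Vale.Agent.P154.Mid.Q340

open Vale.Agent.P154.Anti Vale.Agent.P154.Anti.Box

/-- The exponents of the scalar coordinates. -/
def E : Fin 3 → N3 := ![⟨2, 2, 2⟩, ⟨3, 3, 0⟩, ⟨4, 1, 1⟩]

/-- The data of the left window. -/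
def WL : List WData := [
  ⟨(-63/200), (-41/142), 0, 1, 100000000, 100000000⟩,
  ⟨(-63/200), (-41/142), 3, 4, 100000000, 100000000⟩,
  ⟨(-63/200), (-41/142), 6, 7, 100000000, 100000000⟩,
  ⟨(-63/200), (-41/142), 9, 10, 100000000, 100000000⟩,
  ⟨(-63/200), (-41/142), 12, 13, 100000000, 100000000⟩,
  ⟨(-63/200), (-41/142), 15, 16, 100000000, 100000000⟩,
  ⟨(-63/200), (-41/142), 18, 19, 100000000, 100000000⟩,
  ⟨(-63/200), (-41/142), 21, 22, 100000000, 100000000⟩,
  ⟨(-63/200), (-41/142), 24, 25, 100000000, 100000000⟩,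
  ⟨(-63/200), (-41/142), 27, 28, 100000000, 100000000⟩,
  ⟨(-63/200), (-41/142), 30, 31, 100000000, 100000000⟩,
  ⟨(-63/200), (-41/142), 33, 34, 100000000, 100000000⟩,
  ⟨(-63/200), (-41/142), 36, 37, 100000000, 100000000⟩,
  ⟨(-63/200), (-41/142), 39, 40, 100000000, 100000000⟩,
  ⟨(-63/200), (-41/142), 42, 43, 100000000, 100000000⟩]

/-- The data of the right window. -/
def WR : List WData := [
  ⟨(-17/50), (-63/200), 1, 2, 100000000, 100000000⟩,
  ⟨(-17/50), (-63/200), 4, 5, 100000000, 100000000⟩,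
  ⟨(-17/50), (-63/200), 7, 8, 100000000, 100000000⟩,
  ⟨(-17/50), (-63/200), 10, 11, 100000000, 100000000⟩,
  ⟨(-17/50), (-63/200), 13, 14, 100000000, 100000000⟩,
  ⟨(-17/50), (-63/200), 16, 17, 100000000, 100000000⟩,
  ⟨(-17/50), (-63/200), 19, 20, 100000000, 100000000⟩,
  ⟨(-17/50), (-63/200), 22, 23, 100000000, 100000000⟩,
  ⟨(-17/50), (-63/200), 25, 26, 100000000, 100000000⟩,
  ⟨(-17/50), (-63/200), 28, 29, 100000000, 100000000⟩,
  ⟨(-17/50), (-63/200), 31, 32, 100000000, 100000000⟩,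
  ⟨(-17/50), (-63/200), 34, 35, 100000000, 100000000⟩,
  ⟨(-17/50), (-63/200), 37, 38, 100000000, 100000000⟩,
  ⟨(-17/50), (-63/200), 40, 41, 100000000, 100000000⟩,
  ⟨(-17/50), (-63/200), 43, 44, 100000000, 100000000⟩]

theorem basis_ok : basisOk Cert.C = true := by decide +kernel

theorem checkL : windowCheck Cert.C E (-17/50) (-63/200) V WL = true := by decide +kernel

theorem checkR : windowCheck Cert.C E (-63/200) (-41/142) V WR = true := by decide +kernel

end Vale.Agent.P154.Mid.Q340
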