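import Vale.Agent.P154.Mid.Q360CertA
import Vale.Agent.P154.Mid.Q360CertB
import Vale.Agent.P154.Mid.Q360CertC

/-!
# Nonnegative vectors of one family of windows

Generated data.
-/

namespace Vale.Agent.P154.Mid.Q360.Cert

open Vale.Agent.P154.Anti Vale.Agent.P154.Anti.Box

theorem node0 : Cert C ⟨16777216, 51539607552, 16777216, 51539607552⟩ ids :=
  cert_split (ax := true) (by decide +kernel) cert_T0 cert_T1

theorem node1 : Cert C ⟨33554432, 51539607552, 33554432, 51539607552⟩ ids :=
  cert_split (ax := true) (by decide +kernel) node0 cert_T2

theorem node2 : Cert C ⟨67108864, 51539607552, 67108864, 51539607552⟩ ids :=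
  cert_split (ax := true) (by decide +kernel) node1 cert_T3

theorem node3 : Cert C ⟨134217728, 51539607552, 134217728, 51539607552⟩ ids :=
  cert_split (ax := true) (by decide +kernel) node2 cert_T4

theorem node4 : Cert C ⟨268435456, 51539607552, 268435456, 51539607552⟩ ids :=
  cert_split (ax := true) (by decide +kernel) node3 cert_T5

theorem node5 : Cert C ⟨536870912, 51539607552, 536870912, 51539607552⟩ ids :=
  cert_split (ax := true) (by decide +kernel) node4 cert_T6

theorem node6 : Cert C ⟨1073741824, 51539607552, 1073741824, 51539607552⟩ ids :=
  cert_split (ax := true) (by decide +kernel) node5 cert_T7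

theorem node7 : Cert C ⟨2147483648, 51539607552, 2147483648, 51539607552⟩ ids :=
  cert_split (ax := true) (by decide +kernel) node6 cert_T8

theorem node8 : Cert C ⟨4294967296, 51539607552, 4294967296, 51539607552⟩ ids :=
  cert_split (ax := true) (by decide +kernel) node7 cert_T9

theorem node9 : Cert C ⟨8589934592, 51539607552, 8589934592, 51539607552⟩ ids :=
  cert_split (ax := true) (by decide +kernel) node8 cert_T10

theorem node10 : Cert C ⟨25769803776, 77309411328, 8589934592, 25769803776⟩ ids :=
  cert_split (ax := false) (by decide +kernel) cert_T12 cert_T13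

theorem node11 : Cert C ⟨25769803776, 51539607552, 8589934592, 51539607552⟩ ids :=
  cert_split (ax := false) (by decide +kernel) cert_T11 node10

theorem node12 : Cert C ⟨17179869184, 51539607552, 17179869184, 51539607552⟩ ids :=
  cert_split (ax := true) (by decide +kernel) node9 node11

theorem node13 : Cert C ⟨42949672960, 64424509440, 8589934592, 12884901888⟩ ids :=
  cert_split (ax := false) (by decide +kernel) cert_T15 cert_T16

theorem node14 : Cert C ⟨42949672960, 77309411328, 8589934592, 25769803776⟩ ids :=
  cert_split (ax := false) (by decide +kernel) node13 cert_T17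

theorem node15 : Cert C ⟨55834574848, 70866960384, 4294967296, 6442450944⟩ ids :=
  cert_split (ax := false) (by decide +kernel) cert_T19 cert_T20

theorem node16 : Cert C ⟨60129542144, 70866960384, 8589934592, 6442450944⟩ ids :=
  cert_split (ax := true) (by decide +kernel) node15 cert_T21

theorem node17 : Cert C ⟨60129542144, 64424509440, 8589934592, 12884901888⟩ ids :=
  cert_split (ax := false) (by decide +kernel) cert_T18 node16

theorem node18 : Cert C ⟨60129542144, 77309411328, 8589934592, 25769803776⟩ ids :=
  cert_split (ax := false) (by decide +kernel) node17 cert_T22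

theorem node19 : Cert C ⟨51539607552, 77309411328, 17179869184, 25769803776⟩ ids :=
  cert_split (ax := true) (by decide +kernel) node14 node18

theorem node20 : Cert C ⟨51539607552, 51539607552, 17179869184, 51539607552⟩ ids :=
  cert_split (ax := false) (by decide +kernel) cert_T14 node19

theorem node21 : Cert C ⟨34359738368, 51539607552, 34359738368, 51539607552⟩ ids :=
  cert_split (ax := true) (by decide +kernel) node12 node20

/-- The vectors are nonnegative on the simplex. -/
theorem nonneg : Nonneg C := by
  refine nonneg_of_cert cfg_ok ?_
  have e1 : List.range C.vecs.length = ids := by decide +kernel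
  have e2 : Box.root C.D = ⟨34359738368, 51539607552, 34359738368, 51539607552⟩ := by decide +kernel
  rw [e1, e2]
  exact node21

end Vale.Agent.P154.Mid.Q360.Cert
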