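import Vale.Agent.P154.Anti.BoxNode
import Vale.Agent.P154.Mid.Q360Cert
import Vale.Agent.P154.Mid.Q360Scalar

/-!
# The windows between -9/25, -7/20 and -17/50

Generated glue from the box certificate to the node inequalities of the two windows.
-/

namespace Vale.Agent.P154.Mid.Q360

open Vale.Agent.P154.Anti Vale.Agent.P154.Anti.Box

/-- The exponents of the scalar coordinates. -/
def E : Fin 3 → N3 := ![⟨2, 2, 2⟩, ⟨3, 3, 0⟩, ⟨4, 1, 1⟩]

/-- The data of the left window. -/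
def WL : List WData := [
  ⟨(-7/20), (-17/50), 0, 1, 100000000, 100000000⟩,
  ⟨(-7/20), (-17/50), 3, 4, 100000000, 100000000⟩,
  ⟨(-7/20), (-17/50), 6, 7, 100000000, 100000000⟩,
  ⟨(-7/20), (-17/50), 9, 10, 100000000, 100000000⟩,
  ⟨(-7/20), (-17/50), 12, 13, 100000000, 100000000⟩,
  ⟨(-7/20), (-17/50), 15, 16, 100000000, 100000000⟩,
  ⟨(-7/20), (-17/50), 18, 19, 100000000, 100000000⟩,
  ⟨(-7/20), (-17/50), 21, 22, 100000000, 100000000⟩,
  ⟨(-7/20), (-17/50), 24, 25, 100000000, 100000000⟩,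
  ⟨(-7/20), (-17/50), 27, 28, 100000000, 100000000⟩,
  ⟨(-7/20), (-17/50), 30, 31, 100000000, 100000000⟩,
  ⟨(-7/20), (-17/50), 33, 34, 100000000, 100000000⟩,
  ⟨(-7/20), (-17/50), 36, 37, 100000000, 100000000⟩,
  ⟨(-7/20), (-17/50), 39, 40, 100000000, 100000000⟩,
  ⟨(-7/20), (-17/50), 42, 43, 100000000, 100000000⟩,
  ⟨(-7/20), (-17/50), 45, 46, 100000000, 100000000⟩]

/-- The data of the right window. -/
def WR : List WData := [
  ⟨(-9/25), (-7/20), 1, 2, 100000000, 100000000⟩,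
  ⟨(-9/25), (-7/20), 4, 5, 100000000, 100000000⟩,
  ⟨(-9/25), (-7/20), 7, 8, 100000000, 100000000⟩,
  ⟨(-9/25), (-7/20), 10, 11, 100000000, 100000000⟩,
  ⟨(-9/25), (-7/20), 13, 14, 100000000, 100000000⟩,
  ⟨(-9/25), (-7/20), 16, 17, 100000000, 100000000⟩,
  ⟨(-9/25), (-7/20), 19, 20, 100000000, 100000000⟩,
  ⟨(-9/25), (-7/20), 22, 23, 100000000, 100000000⟩,
  ⟨(-9/25), (-7/20), 25, 26, 100000000, 100000000⟩,
  ⟨(-9/25), (-7/20), 28, 29, 100000000, 100000000⟩,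
  ⟨(-9/25), (-7/20), 31, 32, 100000000, 100000000⟩,
  ⟨(-9/25), (-7/20), 34, 35, 100000000, 100000000⟩,
  ⟨(-9/25), (-7/20), 37, 38, 100000000, 100000000⟩,
  ⟨(-9/25), (-7/20), 40, 41, 100000000, 100000000⟩,
  ⟨(-9/25), (-7/20), 43, 44, 100000000, 100000000⟩,
  ⟨(-9/25), (-7/20), 46, 47, 100000000, 100000000⟩]

theorem basis_ok : basisOk Cert.C = true := by decide +kernel

theorem checkL : windowCheck Cert.C E (-9/25) (-7/20) V WL = true := by decide +kernel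

theorem checkR : windowCheck Cert.C E (-7/20) (-17/50) V WR = true := by decide +kernel

end Vale.Agent.P154.Mid.Q360
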