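import Vale.Agent.P154.Mid.R11CertA
import Vale.Agent.P154.Mid.R11CertB
import Vale.Agent.P154.Mid.R11CertC

/-!
# Nonnegative vectors of one family of windows

Generated data.
-/

namespace Vale.Agent.P154.Mid.R11.Cert

open Vale.Agent.P154.Anti Vale.Agent.P154.Anti.Box

theorem node0 : Cert C ⟨2147483648, 38654705664, 2147483648, 12884901888⟩ ids :=
  cert_split (ax := true) (by decide +kernel) cert_T1 cert_T2

theorem node1 : Cert C ⟨2147483648, 25769803776, 2147483648, 25769803776⟩ ids :=
  cert_split (ax := false) (by decide +kernel) cert_T0 node0

theorem node2 : Cert C ⟨4294967296, 25769803776, 4294967296, 25769803776⟩ ids :=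
  cert_split (ax := true) (by decide +kernel) node1 cert_T3

theorem node3 : Cert C ⟨8589934592, 25769803776, 8589934592, 25769803776⟩ ids :=
  cert_split (ax := true) (by decide +kernel) node2 cert_T4

theorem node4 : Cert C ⟨268435456, 77309411328, 268435456, 25769803776⟩ ids :=
  cert_split (ax := true) (by decide +kernel) cert_T5 cert_T6

theorem node5 : Cert C ⟨536870912, 77309411328, 536870912, 25769803776⟩ ids :=
  cert_split (ax := true) (by decide +kernel) node4 cert_T7

theorem node6 : Cert C ⟨1073741824, 77309411328, 1073741824, 25769803776⟩ ids :=
  cert_split (ax := true) (by decide +kernel) node5 cert_T8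

theorem node7 : Cert C ⟨2147483648, 77309411328, 2147483648, 25769803776⟩ ids :=
  cert_split (ax := true) (by decide +kernel) node6 cert_T9

theorem node8 : Cert C ⟨4294967296, 77309411328, 4294967296, 25769803776⟩ ids :=
  cert_split (ax := true) (by decide +kernel) node7 cert_T10

theorem node9 : Cert C ⟨8589934592, 77309411328, 8589934592, 25769803776⟩ ids :=
  cert_split (ax := true) (by decide +kernel) node8 cert_T11

theorem node10 : Cert C ⟨8589934592, 51539607552, 8589934592, 51539607552⟩ ids :=
  cert_split (ax := false) (by decide +kernel) node3 node9

theorem node11 : Cert C ⟨25769803776, 77309411328, 8589934592, 25769803776⟩ ids :=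
  cert_split (ax := false) (by decide +kernel) cert_T13 cert_T14

theorem node12 : Cert C ⟨25769803776, 51539607552, 8589934592, 51539607552⟩ ids :=
  cert_split (ax := false) (by decide +kernel) cert_T12 node11

theorem node13 : Cert C ⟨17179869184, 51539607552, 17179869184, 51539607552⟩ ids :=
  cert_split (ax := true) (by decide +kernel) node10 node12

theorem node14 : Cert C ⟨42949672960, 64424509440, 8589934592, 12884901888⟩ ids :=
  cert_split (ax := false) (by decide +kernel) cert_T16 cert_T17

theorem node15 : Cert C ⟨42949672960, 77309411328, 8589934592, 25769803776⟩ ids :=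
  cert_split (ax := false) (by decide +kernel) node14 cert_T18

theorem node16 : Cert C ⟨55834574848, 70866960384, 4294967296, 6442450944⟩ ids :=
  cert_split (ax := false) (by decide +kernel) cert_T20 cert_T21

theorem node17 : Cert C ⟨60129542144, 70866960384, 8589934592, 6442450944⟩ ids :=
  cert_split (ax := true) (by decide +kernel) node16 cert_T22

theorem node18 : Cert C ⟨60129542144, 64424509440, 8589934592, 12884901888⟩ ids :=
  cert_split (ax := false) (by decide +kernel) cert_T19 node17

theorem node19 : Cert C ⟨60129542144, 77309411328, 8589934592, 25769803776⟩ ids :=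
  cert_split (ax := false) (by decide +kernel) node18 cert_T23

theorem node20 : Cert C ⟨51539607552, 77309411328, 17179869184, 25769803776⟩ ids :=
  cert_split (ax := true) (by decide +kernel) node15 node19

theorem node21 : Cert C ⟨51539607552, 51539607552, 17179869184, 51539607552⟩ ids :=
  cert_split (ax := false) (by decide +kernel) cert_T15 node20

theorem node22 : Cert C ⟨34359738368, 51539607552, 34359738368, 51539607552⟩ ids :=
  cert_split (ax := true) (by decide +kernel) node13 node21

/-- The vectors are nonnegative on the simplex. -/
theorem nonneg : Nonneg C := by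
  refine nonneg_of_cert cfg_ok ?_
  have e1 : List.range C.vecs.length = ids := by decide +kernel
  have e2 : Box.root C.D = ⟨34359738368, 51539607552, 34359738368, 51539607552⟩ := by decide +kernel
  rw [e1, e2]
  exact node22

end Vale.Agent.P154.Mid.R11.Cert
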