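import Vale.Agent.P154.Anti.BoxNode
import Vale.Agent.P154.Mid.R6Cert
import Vale.Agent.P154.Mid.R6Scalar

/-!
# The windows between -1675/4096, -1673/4096 and -209/512

Generated glue from the box certificate to the node inequalities of the right window.
-/

namespace Vale.Agent.P154.Mid.R6

open Vale.Agent.P154.Anti Vale.Agent.P154.Anti.Box

/-- The exponents of the scalar coordinates. -/
def E : Fin 3 → N3 := ![⟨2, 2, 2⟩, ⟨3, 3, 0⟩, ⟨4, 1, 1⟩]

/-- The data of the right window. -/
def WR : List WData := [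
  ⟨(-1675/4096), (-1673/4096), 0, 1, 100000000, 100000000⟩,
  ⟨(-1675/4096), (-1673/4096), 2, 3, 100000000, 100000000⟩,
  ⟨(-1675/4096), (-1673/4096), 4, 5, 100000000, 100000000⟩,
  ⟨(-1675/4096), (-1673/4096), 6, 7, 100000000, 100000000⟩,
  ⟨(-1675/4096), (-1673/4096), 8, 9, 100000000, 100000000⟩,
  ⟨(-1675/4096), (-1673/4096), 10, 11, 100000000, 100000000⟩,
  ⟨(-1675/4096), (-1673/4096), 12, 13, 100000000, 100000000⟩,
  ⟨(-1675/4096), (-1673/4096), 14, 15, 100000000, 100000000⟩,
  ⟨(-1675/4096), (-1673/4096), 16, 17, 100000000, 100000000⟩,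
  ⟨(-1675/4096), (-1673/4096), 18, 19, 100000000, 100000000⟩,
  ⟨(-1675/4096), (-1673/4096), 20, 21, 100000000, 100000000⟩,
  ⟨(-1675/4096), (-1673/4096), 22, 23, 100000000, 100000000⟩,
  ⟨(-1675/4096), (-1673/4096), 24, 25, 100000000, 100000000⟩,
  ⟨(-1675/4096), (-1673/4096), 26, 27, 100000000, 100000000⟩,
  ⟨(-1675/4096), (-1673/4096), 28, 29, 100000000, 100000000⟩,
  ⟨(-1675/4096), (-1673/4096), 30, 31, 100000000, 100000000⟩]

theorem basis_ok : basisOk Cert.C = true := by decide +kernel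

theorem checkR : windowCheck Cert.C E (-1673/4096) (-209/512) V WR = true := by decide +kernel

end Vale.Agent.P154.Mid.R6
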