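import Vale.Agent.P154.Mid.Q385Glue
import Vale.Agent.P154.Mid.Q360Glue
import Vale.Agent.P154.Mid.Q340Glue
import Vale.Agent.P154.Mid.R6Glue
import Vale.Agent.P154.Mid.R7Glue
import Vale.Agent.P154.Mid.R8Glue
import Vale.Agent.P154.Mid.R9Glue
import Vale.Agent.P154.Mid.R10Glue
import Vale.Agent.P154.Mid.R11Glue
import Vale.Agent.P154.Anti.SmallX
import Vale.Agent.P154.Anti.Window
import Vale.Agent.P154.Anti.WideRange

/-!
# Three states, negative parameter: mean degree at least `(200/77)^2`, regular degree at least `6`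

The exponents `(2,2,2)/6`, `(3,3,0)/6`, `(4,1,1)/6` on windows of the critical curve, together
with the exclusion of small limits and the range `λ ≥ -41/142`.
-/

namespace Vale.Agent.P154.Mid

open Filter Topology Vale.Agent.P154.Tree Vale.Agent.P154.Anti Vale.Agent.P154.Anti.Box

/-- The three exponents. -/
def E : Fin 3 → N3 := ![⟨2, 2, 2⟩, ⟨3, 3, 0⟩, ⟨4, 1, 1⟩]

/-- Their weights. -/
noncomputable def A : Fin 3 → Fin 3 → ℝ := fun j => expo3 (E j)

theorem E_sum : ∀ j, (E j).n0 + (E j).n1 + (E j).n2 = 6 := by decide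

theorem A_nonneg : ∀ j i, 0 ≤ A j i := fun j => (expo3_simplex (by norm_num) (E_sum j)).1

theorem A_sum : ∀ j, ∑ i, A j i = 1 := fun j => (expo3_simplex (by norm_num) (E_sum j)).2

theorem A_ref : (1 / 3 : ℝ) ≤ A 0 0 ∧ (1 / 3 : ℝ) ≤ A 0 1 := by
  simp only [A, expo3_apply (E_sum 0)]
  norm_num [E, N3.fn]

/-- One window, Poisson offspring. -/
theorem poisson_window {V : List (SVec 3)} {a b : ℚ} {D : ℚ} {Ks M : ℕ} (t : STree 3)
    (hW : WindowPW A V a b)
    (hck : sCheck (genP D Ks M) V 0 (1 / 80) t (fun _ => 0) (fun _ => D) = true)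
    {d lam : ℝ} (ha : -(1 / 2) ≤ (a : ℝ)) (ha2 : (a : ℝ) ^ 2 ≤ 1 / 5) (hab : (a : ℝ) < b)
    (hb : (b : ℝ) < 0) (hd1 : 1 ≤ d * (a : ℝ) ^ 2) (hd2 : d * (b : ℝ) ^ 2 ≤ 1)
    (hdD : d ≤ D) (h1 : lam ≤ 0) (h : d * lam ^ 2 ≤ 1) :
    Tendsto (adv 3 (poissonLaw d) lam) atTop (𝓝 0) :=
  tendsto_adv_poisson_of_window A_nonneg A_sum (by norm_num) A_ref.1 A_ref.2 ha hab hb hW t hck
    (fun d lam l1 l2 hd => SmallX.smallExcl_poisson_X 0 1 2 rfl rfl rfl (by norm_num) hd
      (by linarith) (by nlinarith)) hd1 hd2 hdD h1 h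

/-- One window, the regular tree. -/
theorem regular_window {V : List (SVec 3)} {a b : ℚ} {k : ℕ} (t : STree 3)
    (hW : WindowPW A V a b)
    (hck : sCheck (genR k) V 0 (1 / 80) t (fun _ => 0) (fun _ => (k : ℚ)) = true)
    {lam : ℝ} (ha : -(1 / 2) ≤ (a : ℝ)) (ha2 : (a : ℝ) ^ 2 ≤ 1 / 5) (hab : (a : ℝ) < b)
    (hb : (b : ℝ) < 0) (hk1 : 1 ≤ (k : ℝ) * (a : ℝ) ^ 2) (hk2 : (k : ℝ) * (b : ℝ) ^ 2 ≤ 1)
    (h1 : lam ≤ 0) (h : (k : ℝ) * lam ^ 2 ≤ 1) :
    Tendsto (adv 3 (regLaw k) lam) atTop (𝓝 0) :=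
  tendsto_adv_regular_of_window A_nonneg A_sum (by norm_num) A_ref.1 A_ref.2 ha hab hb hW t hck
    (fun lam l1 l2 hd => SmallX.smallExcl_regular_X 0 1 2 rfl rfl rfl (by norm_num) hd
      (by linarith) (by nlinarith)) hk1 hk2 h1 h

/-- Poisson trees with mean at least `(200/77)^2`: no reconstruction at or below the bound. -/
theorem poisson_mid {d lam : ℝ} (hd : 1 ≤ d * (77 / 200) ^ 2) (h1 : lam ≤ 0) (h : d * lam ^ 2 ≤ 1) :
    Tendsto (adv 3 (poissonLaw d) lam) atTop (𝓝 0) := by
  by_cases c6 : d * (41 / 142) ^ 2 ≤ 1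
  · by_cases c1 : d * (3 / 8) ^ 2 ≤ 1
    · exact poisson_window (a := -77 / 200) (b := -3 / 8) Q385.T
        (windowPW_of_check Q385.Cert.nonneg Q385.basis_ok Q385.E _ _ _ Q385.WL Q385.checkL)
        Q385.scalar (by norm_num) (by norm_num) (by norm_num) (by norm_num)
        (by norm_num; linarith) (by norm_num; linarith) (by norm_num; linarith) h1 h
    by_cases c2 : d * (9 / 25) ^ 2 ≤ 1
    · exact poisson_window (a := -3 / 8) (b := -9 / 25) Q385.T
        (windowPW_of_check Q385.Cert.nonneg Q385.basis_ok Q385.E _ _ _ Q385.WR Q385.checkR)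
        Q385.scalar (by norm_num) (by norm_num) (by norm_num) (by norm_num)
        (by norm_num; linarith) (by norm_num; linarith) (by norm_num; linarith) h1 h
    by_cases c3 : d * (7 / 20) ^ 2 ≤ 1
    · exact poisson_window (a := -9 / 25) (b := -7 / 20) Q360.T
        (windowPW_of_check Q360.Cert.nonneg Q360.basis_ok Q360.E _ _ _ Q360.WL Q360.checkL)
        Q360.scalar (by norm_num) (by norm_num) (by norm_num) (by norm_num)
        (by norm_num; linarith) (by norm_num; linarith) (by norm_num; linarith) h1 h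
    by_cases c4 : d * (17 / 50) ^ 2 ≤ 1
    · exact poisson_window (a := -7 / 20) (b := -17 / 50) Q360.T
        (windowPW_of_check Q360.Cert.nonneg Q360.basis_ok Q360.E _ _ _ Q360.WR Q360.checkR)
        Q360.scalar (by norm_num) (by norm_num) (by norm_num) (by norm_num)
        (by norm_num; linarith) (by norm_num; linarith) (by norm_num; linarith) h1 h
    by_cases c5 : d * (63 / 200) ^ 2 ≤ 1
    · exact poisson_window (a := -17 / 50) (b := -63 / 200) Q340.T
        (windowPW_of_check Q340.Cert.nonneg Q340.basis_ok Q340.E _ _ _ Q340.WL Q340.checkL)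
        Q340.scalar (by norm_num) (by norm_num) (by norm_num) (by norm_num)
        (by norm_num; linarith) (by norm_num; linarith) (by norm_num; linarith) h1 h
    · exact poisson_window (a := -63 / 200) (b := -41 / 142) Q340.T
        (windowPW_of_check Q340.Cert.nonneg Q340.basis_ok Q340.E _ _ _ Q340.WR Q340.checkR)
        Q340.scalar (by norm_num) (by norm_num) (by norm_num) (by norm_num)
        (by norm_num; linarith) (by norm_num; linarith) (by norm_num; linarith) h1 h
  · have hd0 : 0 < d := by linarith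
    have hl : -(41 / 142) ≤ lam := by
      by_contra hn
      have : (41 / 142 : ℝ) ^ 2 ≤ lam ^ 2 := by nlinarith
      nlinarith [mul_le_mul_of_nonneg_left this hd0.le]
    exact Wide.tendsto_adv_wide (isLaw_poissonLaw hd0.le) hl h1
      (Or.inr ⟨h, branchProb_poissonLaw_pos hd0⟩)

/-- Regular trees of degree at least `6`: no reconstruction at or below the bound. -/
theorem regular_mid {d : ℕ} (hd : 6 ≤ d) {lam : ℝ} (h1 : lam ≤ 0) (h : (d : ℝ) * lam ^ 2 ≤ 1) :
    Tendsto (adv 3 (regLaw d) lam) atTop (𝓝 0) := by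
  by_cases c : 12 ≤ d
  · exact Wide.regular_wide c h1 h
  interval_cases d
  · exact regular_window (a := -1673 / 4096) (b := -209 / 512) R6.T
      (windowPW_of_check R6.Cert.nonneg R6.basis_ok R6.E _ _ _ R6.WR R6.checkR) R6.scalar
      (by norm_num) (by norm_num) (by norm_num) (by norm_num) (by norm_num) (by norm_num) h1 h
  · exact regular_window (a := -1549 / 4096) (b := -387 / 1024) R7.T
      (windowPW_of_check R7.Cert.nonneg R7.basis_ok R7.E _ _ _ R7.WR R7.checkR) R7.scalar
      (by norm_num) (by norm_num) (by norm_num) (by norm_num) (by norm_num) (by norm_num) h1 h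
  · exact regular_window (a := -1449 / 4096) (b := -181 / 512) R8.T
      (windowPW_of_check R8.Cert.nonneg R8.basis_ok R8.E _ _ _ R8.WR R8.checkR) R8.scalar
      (by norm_num) (by norm_num) (by norm_num) (by norm_num) (by norm_num) (by norm_num) h1 h
  · exact regular_window (a := -683 / 2048) (b := -1365 / 4096) R9.T
      (windowPW_of_check R9.Cert.nonneg R9.basis_ok R9.E _ _ _ R9.WR R9.checkR) R9.scalar
      (by norm_num) (by norm_num) (by norm_num) (by norm_num) (by norm_num) (by norm_num) h1 h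
  · exact regular_window (a := -81 / 256) (b := -1295 / 4096) R10.T
      (windowPW_of_check R10.Cert.nonneg R10.basis_ok R10.E _ _ _ R10.WR R10.checkR) R10.scalar
      (by norm_num) (by norm_num) (by norm_num) (by norm_num) (by norm_num) (by norm_num) h1 h
  · exact regular_window (a := -1235 / 4096) (b := -617 / 2048) R11.T
      (windowPW_of_check R11.Cert.nonneg R11.basis_ok R11.E _ _ _ R11.WR R11.checkR) R11.scalar
      (by norm_num) (by norm_num) (by norm_num) (by norm_num) (by norm_num) (by norm_num) h1 h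

/-- The critical curve on `[-77/200, 0)`, Poisson offspring. -/
theorem poisson_mid_crit {d lam : ℝ} (h0 : -(77 / 200) ≤ lam) (h1 : lam < 0)
    (h : d * lam ^ 2 = 1) : Tendsto (adv 3 (poissonLaw d) lam) atTop (𝓝 0) := by
  have hd : 0 ≤ d := by nlinarith [sq_nonneg lam]
  have h2 : lam ^ 2 ≤ (77 / 200 : ℝ) ^ 2 := by nlinarith
  exact poisson_mid (by nlinarith [mul_le_mul_of_nonneg_left h2 hd]) h1.le h.le

end Vale.Agent.P154.Mid
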