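import Vale.Agent.P154.Anti.BoxNode
import Vale.Agent.P154.Mid.Q385Cert
import Vale.Agent.P154.Mid.Q385Scalar

/-!
# The windows between -77/200, -3/8 and -9/25

Generated glue from the box certificate to the node inequalities of the two windows.
-/

namespace Vale.Agent.P154.Mid.Q385

open Vale.Agent.P154.Anti Vale.Agent.P154.Anti.Box

/-- The exponents of the scalar coordinates. -/
def E : Fin 3 → N3 := ![⟨2, 2, 2⟩, ⟨3, 3, 0⟩, ⟨4, 1, 1⟩]

/-- The data of the left window. -/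
def WL : List WData := [
  ⟨(-3/8), (-9/25), 0, 1, 100000000, 100000000⟩,
  ⟨(-3/8), (-9/25), 3, 4, 100000000, 100000000⟩,
  ⟨(-3/8), (-9/25), 6, 7, 100000000, 100000000⟩,
  ⟨(-3/8), (-9/25), 9, 10, 100000000, 100000000⟩,
  ⟨(-3/8), (-9/25), 12, 13, 100000000, 100000000⟩,
  ⟨(-3/8), (-9/25), 15, 16, 100000000, 100000000⟩,
  ⟨(-3/8), (-9/25), 18, 19, 100000000, 100000000⟩,
  ⟨(-3/8), (-9/25), 21, 22, 100000000, 100000000⟩,
  ⟨(-3/8), (-9/25), 24, 25, 100000000, 100000000⟩,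
  ⟨(-3/8), (-9/25), 27, 28, 100000000, 100000000⟩,
  ⟨(-3/8), (-9/25), 30, 31, 100000000, 100000000⟩,
  ⟨(-3/8), (-9/25), 33, 34, 100000000, 100000000⟩,
  ⟨(-3/8), (-9/25), 36, 37, 100000000, 100000000⟩,
  ⟨(-3/8), (-9/25), 39, 40, 100000000, 100000000⟩,
  ⟨(-3/8), (-9/25), 42, 43, 100000000, 100000000⟩,
  ⟨(-3/8), (-9/25), 45, 46, 100000000, 100000000⟩,
  ⟨(-3/8), (-9/25), 48, 49, 100000000, 100000000⟩,
  ⟨(-3/8), (-9/25), 51, 52, 100000000, 100000000⟩,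
  ⟨(-3/8), (-9/25), 54, 55, 100000000, 100000000⟩,
  ⟨(-3/8), (-9/25), 57, 58, 100000000, 100000000⟩,
  ⟨(-3/8), (-9/25), 60, 61, 100000000, 100000000⟩]

/-- The data of the right window. -/
def WR : List WData := [
  ⟨(-77/200), (-3/8), 1, 2, 100000000, 100000000⟩,
  ⟨(-77/200), (-3/8), 4, 5, 100000000, 100000000⟩,
  ⟨(-77/200), (-3/8), 7, 8, 100000000, 100000000⟩,
  ⟨(-77/200), (-3/8), 10, 11, 100000000, 100000000⟩,
  ⟨(-77/200), (-3/8), 13, 14, 100000000, 100000000⟩,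
  ⟨(-77/200), (-3/8), 16, 17, 100000000, 100000000⟩,
  ⟨(-77/200), (-3/8), 19, 20, 100000000, 100000000⟩,
  ⟨(-77/200), (-3/8), 22, 23, 100000000, 100000000⟩,
  ⟨(-77/200), (-3/8), 25, 26, 100000000, 100000000⟩,
  ⟨(-77/200), (-3/8), 28, 29, 100000000, 100000000⟩,
  ⟨(-77/200), (-3/8), 31, 32, 100000000, 100000000⟩,
  ⟨(-77/200), (-3/8), 34, 35, 100000000, 100000000⟩,
  ⟨(-77/200), (-3/8), 37, 38, 100000000, 100000000⟩,
  ⟨(-77/200), (-3/8), 40, 41, 100000000, 100000000⟩,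
  ⟨(-77/200), (-3/8), 43, 44, 100000000, 100000000⟩,
  ⟨(-77/200), (-3/8), 46, 47, 100000000, 100000000⟩,
  ⟨(-77/200), (-3/8), 49, 50, 100000000, 100000000⟩,
  ⟨(-77/200), (-3/8), 52, 53, 100000000, 100000000⟩,
  ⟨(-77/200), (-3/8), 55, 56, 100000000, 100000000⟩,
  ⟨(-77/200), (-3/8), 58, 59, 100000000, 100000000⟩,
  ⟨(-77/200), (-3/8), 61, 62, 100000000, 100000000⟩]

theorem basis_ok : basisOk Cert.C = true := by decide +kernel

theorem checkL : windowCheck Cert.C E (-77/200) (-3/8) V WL = true := by decide +kernel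

theorem checkR : windowCheck Cert.C E (-3/8) (-9/25) V WR = true := by decide +kernel

end Vale.Agent.P154.Mid.Q385
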