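import Vale.Agent.P154.Anti.BoxFast

/-!
# The vectors of one family of windows

Generated data.
-/

namespace Vale.Agent.P154.Mid.R10.Cert

open Vale.Agent.P154.Anti Vale.Agent.P154.Anti.Box

/-- The vectors. -/
def C : Cfg where
  D := 206158430208
  S := 281476211278547
  N := 6
  basis := [⟨⟨2, 2, 2⟩, ⟨1, 1⟩⟩, ⟨⟨3, 3, 0⟩, ⟨1, 1⟩⟩, ⟨⟨4, 1, 1⟩, ⟨1, 1⟩⟩, ⟨⟨2, 2, 2⟩, ⟨-649, 2048⟩⟩, ⟨⟨3, 3, 0⟩, ⟨-649, 2048⟩⟩, ⟨⟨4, 1, 1⟩, ⟨-649, 2048⟩⟩, ⟨⟨2, 2, 2⟩, ⟨-81, 256⟩⟩, ⟨⟨3, 3, 0⟩, ⟨-81, 256⟩⟩, ⟨⟨4, 1, 1⟩, ⟨-81, 256⟩⟩, ⟨⟨2, 2, 2⟩, ⟨-1295, 4096⟩⟩, ⟨⟨3, 3, 0⟩, ⟨-1295, 4096⟩⟩, ⟨⟨4, 1, 1⟩, ⟨-1295, 4096⟩⟩]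
  vecs := [⟨[-100000000, 91412560, 70533090, 0, 0, 0, 987784648, -906051490, -698849139, 0, 0, 0], 0, 907⟩,
    ⟨[-100000000, 91412560, 70533090, -492371487, 0, 0, 1481676972, 0, 0, 0, -907451338, -699928859], 0, 907⟩,
    ⟨[-100000000, 90741490, 71006580, 0, 0, 0, 981137430, -895196008, -700062529, 0, 0, 0], 0, 2281⟩,
    ⟨[-100000000, 90741490, 71006580, -489058112, 0, 0, 1471706145, 0, 0, 0, -896579083, -701144124], 0, 2281⟩,
    ⟨[-100000000, 89724680, 71724300, 0, 0, 0, 970732702, -878486236, -701676263, 0, 0, 0], 0, 5497⟩,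
    ⟨[-100000000, 89724680, 71724300, -483871768, 0, 0, 1456099054, 0, 0, 0, -879843496, -702760351], 0, 5497⟩,
    ⟨[-100000000, 88078240, 72895520, 0, 0, 0, 954762712, -852537462, -704496481, 0, 0, 0], 0, 13934⟩,
    ⟨[-100000000, 88078240, 72895520, -475911361, 0, 0, 1432144068, 0, 0, 0, -853854631, -705584926], 0, 13934⟩,
    ⟨[-100000000, 85759700, 74548890, 0, 0, 0, 930975680, -815221333, -707371144, 0, 0, 0], 0, 31869⟩,
    ⟨[-100000000, 85759700, 74548890, -464054469, 0, 0, 1396463520, 0, 0, 0, -816480848, -708464031], 0, 31869⟩,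
    ⟨[-100000000, 82334710, 77018890, 0, 0, 0, 897048605, -762430657, -711330435, 0, 0, 0], 0, 74204⟩,
    ⟨[-100000000, 82334710, 77018890, -447143167, 0, 0, 1345572907, 0, 0, 0, -763608610, -712429439], 0, 74204⟩,
    ⟨[-100000000, 79303170, 79211190, 0, 0, 0, 852056143, -707092208, -704664421, 0, 0, 0], 0, 146343⟩,
    ⟨[-100000000, 79303170, 79211190, -424716208, 0, 0, 1278084215, 0, 0, 0, -708184664, -705753126], 0, 146343⟩,
    ⟨[-100000000, 81634640, 77473550, 0, 0, 0, 793456619, -694546044, -654388073, 0, 0, 0], 0, 312618⟩,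
    ⟨[-100000000, 81634640, 77473550, -395506669, 0, 0, 1190184928, 0, 0, 0, -695619116, -655399101], 0, 312618⟩,
    ⟨[-100000000, 91002420, 70808060, 0, 0, 0, 711109457, -722107789, -552339903, 0, 0, 0], 0, 584906⟩,
    ⟨[-100000000, 91002420, 70808060, -354459873, 0, 0, 1066664186, 0, 0, 0, -723223444, -553193267], 0, 584906⟩,
    ⟨[-100000000, 107895810, 59430760, 0, 0, 0, 569744340, -750581254, -402560755, 0, 0, 0], 0, 1263846⟩,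
    ⟨[-100000000, 107895810, 59430760, -283994967, 0, 0, 854616511, 0, 0, 0, -751740900, -403182710], 0, 1263846⟩,
    ⟨[-96181580, 200000000, 8599250, 0, 0, 0, 170159337, -1015355197, -41725797, 0, 0, 0], 0, 4527992⟩,
    ⟨[-96181580, 200000000, 8599250, -84817684, 0, 0, 255239006, 0, 0, 0, -1016923918, -41790263], 0, 4527992⟩,
    ⟨[0, 0, 0, 0, 0, 0, -998872124, 0, 0, 0, 0, 0], 0, 139915900⟩,
    ⟨[0, 0, 0, 0, 0, 0, 0, 0, 0, -1000415379, 0, 0], 0, 139915900⟩]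

/-- All indices. -/
def ids : List ℕ := [0, 1, 2, 3, 4, 5, 6, 7, 8, 9, 10, 11, 12, 13, 14, 15, 16, 17, 18, 19, 20, 21, 22, 23]

theorem cfg_ok : cfgOk C = true := by decide +kernel

theorem ids_lt : ∀ i ∈ ids, i < C.vecs.length := by decide +kernel

end Vale.Agent.P154.Mid.R10.Cert
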