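import Vale.Agent.P154.Anti.BoxFast

/-!
# The vectors of one family of windows

Generated data.
-/

namespace Vale.Agent.P154.Mid.R11.Cert

open Vale.Agent.P154.Anti Vale.Agent.P154.Anti.Box

/-- The vectors. -/
def C : Cfg where
  D := 206158430208
  S := 281476211278547
  N := 6
  basis := [⟨⟨2, 2, 2⟩, ⟨1, 1⟩⟩, ⟨⟨3, 3, 0⟩, ⟨1, 1⟩⟩, ⟨⟨4, 1, 1⟩, ⟨1, 1⟩⟩, ⟨⟨2, 2, 2⟩, ⟨-1237, 4096⟩⟩, ⟨⟨3, 3, 0⟩, ⟨-1237, 4096⟩⟩, ⟨⟨4, 1, 1⟩, ⟨-1237, 4096⟩⟩, ⟨⟨2, 2, 2⟩, ⟨-1235, 4096⟩⟩, ⟨⟨3, 3, 0⟩, ⟨-1235, 4096⟩⟩, ⟨⟨4, 1, 1⟩, ⟨-1235, 4096⟩⟩, ⟨⟨2, 2, 2⟩, ⟨-617, 2048⟩⟩, ⟨⟨3, 3, 0⟩, ⟨-617, 2048⟩⟩, ⟨⟨4, 1, 1⟩, ⟨-617, 2048⟩⟩]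
  vecs := [⟨[-100000000, 91622800, 70379870, 0, 0, 0, 1089210184, -1001002895, -768610645, 0, 0, 0], 0, 681⟩,
    ⟨[-100000000, 91622800, 70379870, -542845465, 0, 0, 1633815276, 0, 0, 0, -1002625924, -769856872], 0, 681⟩,
    ⟨[-100000000, 91028340, 70800260, 0, 0, 0, 1082704446, -990435532, -769803876, 0, 0, 0], 0, 1788⟩,
    ⟨[-100000000, 91028340, 70800260, -539603106, 0, 0, 1624056669, 0, 0, 0, -992041426, -771052038], 0, 1788⟩,
    ⟨[-100000000, 90090850, 71464920, 0, 0, 0, 1072450909, -973777766, -771679572, 0, 0, 0], 0, 4576⟩,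
    ⟨[-100000000, 90090850, 71464920, -534492902, 0, 0, 1608676363, 0, 0, 0, -975356651, -772930775], 0, 4576⟩,
    ⟨[-100000000, 88710720, 72443470, 0, 0, 0, 1056556826, -948726937, -773745545, 0, 0, 0], 0, 10670⟩,
    ⟨[-100000000, 88710720, 72443470, -526571538, 0, 0, 1584835240, 0, 0, 0, -950265205, -775000098], 0, 10670⟩,
    ⟨[-100000000, 86412960, 74086390, 0, 0, 0, 1032730063, -909614476, -778295301, 0, 0, 0], 0, 27088⟩,
    ⟨[-100000000, 86412960, 74086390, -514696649, 0, 0, 1549095095, 0, 0, 0, -911089327, -779557231], 0, 27088⟩,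
    ⟨[-100000000, 83534150, 76157350, 0, 0, 0, 998005918, -858083781, -780340468, 0, 0, 0], 0, 59848⟩,
    ⟨[-100000000, 83534150, 76157350, -497390673, 0, 0, 1497008877, 0, 0, 0, -859475080, -781605714], 0, 59848⟩,
    ⟨[-100000000, 79522560, 79068020, 0, 0, 0, 950300222, -788620667, -781739416, 0, 0, 0], 0, 128433⟩,
    ⟨[-100000000, 79522560, 79068020, -473614894, 0, 0, 1425450333, 0, 0, 0, -789899339, -783006930], 0, 128433⟩,
    ⟨[-100000000, 81193530, 77842070, 0, 0, 0, 886717382, -768228046, -731820620, 0, 0, 0], 0, 268690⟩,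
    ⟨[-100000000, 81193530, 77842070, -441926193, 0, 0, 1330076074, 0, 0, 0, -769473652, -733007196], 0, 268690⟩,
    ⟨[-100000000, 90404710, 71306230, 0, 0, 0, 796602349, -799031539, -620064091, 0, 0, 0], 0, 525842⟩,
    ⟨[-100000000, 90404710, 71306230, -397014258, 0, 0, 1194903524, 0, 0, 0, -800327091, -621069464], 0, 525842⟩,
    ⟨[-100000000, 108019490, 59401980, 0, 0, 0, 637692805, -839170190, -449855465, 0, 0, 0], 0, 1321488⟩,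
    ⟨[-100000000, 108019490, 59401980, -317816206, 0, 0, 956539208, 0, 0, 0, -840530822, -450584862], 0, 1321488⟩,
    ⟨[-91860960, 200000000, 4861720, 0, 0, 0, 175096792, -1137287833, -26458672, 0, 0, 0], 0, 4195675⟩,
    ⟨[-91860960, 200000000, 4861720, -87265527, 0, 0, 262645189, 0, 0, 0, -1139131834, -26501572], 0, 4195675⟩,
    ⟨[0, 0, 0, 0, 0, 0, -1099983019, 0, 0, 0, 0, 0], 0, 136465900⟩,
    ⟨[0, 0, 0, 0, 0, 0, 0, 0, 0, -1101766534, 0, 0], 0, 136465900⟩]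

/-- All indices. -/
def ids : List ℕ := [0, 1, 2, 3, 4, 5, 6, 7, 8, 9, 10, 11, 12, 13, 14, 15, 16, 17, 18, 19, 20, 21, 22, 23]

theorem cfg_ok : cfgOk C = true := by decide +kernel

theorem ids_lt : ∀ i ∈ ids, i < C.vecs.length := by decide +kernel

end Vale.Agent.P154.Mid.R11.Cert
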