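import Vale.Agent.P154.Anti.BoxFast

/-!
# The vectors of one family of windows

Generated data.
-/

namespace Vale.Agent.P154.Mid.R8.Cert

open Vale.Agent.P154.Anti Vale.Agent.P154.Anti.Box

/-- The vectors. -/
def C : Cfg where
  D := 206158430208
  S := 281476211278547
  N := 6
  basis := [⟨⟨2, 2, 2⟩, ⟨1, 1⟩⟩, ⟨⟨3, 3, 0⟩, ⟨1, 1⟩⟩, ⟨⟨4, 1, 1⟩, ⟨1, 1⟩⟩, ⟨⟨2, 2, 2⟩, ⟨-1451, 4096⟩⟩, ⟨⟨3, 3, 0⟩, ⟨-1451, 4096⟩⟩, ⟨⟨4, 1, 1⟩, ⟨-1451, 4096⟩⟩, ⟨⟨2, 2, 2⟩, ⟨-1449, 4096⟩⟩, ⟨⟨3, 3, 0⟩, ⟨-1449, 4096⟩⟩, ⟨⟨4, 1, 1⟩, ⟨-1449, 4096⟩⟩, ⟨⟨2, 2, 2⟩, ⟨-181, 512⟩⟩, ⟨⟨3, 3, 0⟩, ⟨-181, 512⟩⟩, ⟨⟨4, 1, 1⟩, ⟨-181, 512⟩⟩]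
  vecs := [⟨[-100000000, 91261610, 70653080, 0, 0, 0, 790483739, -723746057, -560114754, 0, 0, 0], 0, 777⟩,
    ⟨[-100000000, 91261610, 70653080, -394153050, 0, 0, 1185725608, 0, 0, 0, -724746052, -560888660], 0, 777⟩,
    ⟨[-100000000, 90552020, 71152880, 0, 0, 0, 785394046, -714954351, -561433816, 0, 0, 0], 0, 2161⟩,
    ⟨[-100000000, 90552020, 71152880, -391615214, 0, 0, 1178091070, 0, 0, 0, -715942198, -562209545], 0, 2161⟩,
    ⟨[-100000000, 89522940, 71876490, 0, 0, 0, 777461627, -701789304, -562980615, 0, 0, 0], 0, 5336⟩,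
    ⟨[-100000000, 89522940, 71876490, -387659931, 0, 0, 1166192441, 0, 0, 0, -702758961, -563758481], 0, 5336⟩,
    ⟨[-100000000, 87970470, 72972680, 0, 0, 0, 765381666, -682007351, -565058416, 0, 0, 0], 0, 12655⟩,
    ⟨[-100000000, 87970470, 72972680, -381636589, 0, 0, 1148072499, 0, 0, 0, -682949675, -565839153], 0, 12655⟩,
    ⟨[-100000000, 85585500, 74670750, 0, 0, 0, 747597591, -652632634, -568399779, 0, 0, 0], 0, 30509⟩,
    ⟨[-100000000, 85585500, 74670750, -372769048, 0, 0, 1121396387, 0, 0, 0, -653534371, -569185132], 0, 30509⟩,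
    ⟨[-100000000, 82402850, 76950480, 0, 0, 0, 722697371, -613114775, -571454352, 0, 0, 0], 0, 65029⟩,
    ⟨[-100000000, 82402850, 76950480, -360353236, 0, 0, 1084046056, 0, 0, 0, -613961911, -572243926], 0, 65029⟩,
    ⟨[-100000000, 78379860, 79861430, 0, 0, 0, 690267354, -563711974, -573592463, 0, 0, 0], 0, 128510⟩,
    ⟨[-100000000, 78379860, 79861430, -344182897, 0, 0, 1035401032, 0, 0, 0, -564490850, -574384991], 0, 128510⟩,
    ⟨[-100000000, 77986090, 80062480, 0, 0, 0, 651369045, -538629245, -551076028, 0, 0, 0], 0, 248874⟩,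
    ⟨[-100000000, 77986090, 80062480, -324787321, 0, 0, 977053568, 0, 0, 0, -539373465, -551837445], 0, 248874⟩,
    ⟨[-100000000, 82027890, 76945110, 0, 0, 0, 603551692, -539072146, -501425680, 0, 0, 0], 0, 467549⟩,
    ⟨[-100000000, 82027890, 76945110, -300944509, 0, 0, 905327539, 0, 0, 0, -539816978, -502118496], 0, 467549⟩,
    ⟨[-100000000, 90829770, 70527630, 0, 0, 0, 537295154, -555211659, -422531607, 0, 0, 0], 0, 811261⟩,
    ⟨[-100000000, 90829770, 70527630, -267907502, 0, 0, 805942731, 0, 0, 0, -555978791, -423115416], 0, 811261⟩,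
    ⟨[-100000000, 108807400, 58296660, 0, 0, 0, 424269043, -579147654, -301046596, 0, 0, 0], 0, 1582859⟩,
    ⟨[-100000000, 108807400, 58296660, -211550130, 0, 0, 636403565, 0, 0, 0, -579947858, -301462550], 0, 1582859⟩,
    ⟨[-100000000, 179526450, 19892910, 0, 0, 0, 149984293, -692563899, -72972532, 0, 0, 0], 0, 5137361⟩,
    ⟨[-100000000, 179526450, 19892910, -74785557, 0, 0, 224976439, 0, 0, 0, -693520810, -73073358], 0, 5137361⟩,
    ⟨[0, 0, 0, 0, 0, 0, -799066871, 0, 0, 0, 0, 0], 0, 150196900⟩,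
    ⟨[0, 0, 0, 0, 0, 0, 0, 0, 0, -800170935, 0, 0], 0, 150196900⟩]

/-- All indices. -/
def ids : List ℕ := [0, 1, 2, 3, 4, 5, 6, 7, 8, 9, 10, 11, 12, 13, 14, 15, 16, 17, 18, 19, 20, 21, 22, 23, 24, 25]

theorem cfg_ok : cfgOk C = true := by decide +kernel

theorem ids_lt : ∀ i ∈ ids, i < C.vecs.length := by decide +kernel

end Vale.Agent.P154.Mid.R8.Cert
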