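import Vale.Agent.P154.Anti.BoxFast

/-!
# The vectors of one family of windows

Generated data.
-/

namespace Vale.Agent.P154.Mid.R9.Cert

open Vale.Agent.P154.Anti Vale.Agent.P154.Anti.Box

/-- The vectors. -/
def C : Cfg where
  D := 206158430208
  S := 281476211278547
  N := 6
  basis := [⟨⟨2, 2, 2⟩, ⟨1, 1⟩⟩, ⟨⟨3, 3, 0⟩, ⟨1, 1⟩⟩, ⟨⟨4, 1, 1⟩, ⟨1, 1⟩⟩, ⟨⟨2, 2, 2⟩, ⟨-171, 512⟩⟩, ⟨⟨3, 3, 0⟩, ⟨-171, 512⟩⟩, ⟨⟨4, 1, 1⟩, ⟨-171, 512⟩⟩, ⟨⟨2, 2, 2⟩, ⟨-683, 2048⟩⟩, ⟨⟨3, 3, 0⟩, ⟨-683, 2048⟩⟩, ⟨⟨4, 1, 1⟩, ⟨-683, 2048⟩⟩, ⟨⟨2, 2, 2⟩, ⟨-1365, 4096⟩⟩, ⟨⟨3, 3, 0⟩, ⟨-1365, 4096⟩⟩, ⟨⟨4, 1, 1⟩, ⟨-1365, 4096⟩⟩]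
  vecs := [⟨[-100000000, 91073070, 70778660, 0, 0, 0, 887077392, -811224574, -630151168, 0, 0, 0], 0, 1292⟩,
    ⟨[-100000000, 91073070, 70778660, -442242748, 0, 0, 1330616089, 0, 0, 0, -812413616, -631074805], 0, 1292⟩,
    ⟨[-100000000, 90239730, 71366680, 0, 0, 0, 879945419, -799370221, -631680647, 0, 0, 0], 0, 3484⟩,
    ⟨[-100000000, 90239730, 71366680, -438687181, 0, 0, 1319918129, 0, 0, 0, -800541888, -632606526], 0, 3484⟩,
    ⟨[-100000000, 89086080, 72179640, 0, 0, 0, 868914713, -781969139, -633010808, 0, 0, 0], 0, 7696⟩,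
    ⟨[-100000000, 89086080, 72179640, -433187943, 0, 0, 1303372070, 0, 0, 0, -783115301, -633938636], 0, 7696⟩,
    ⟨[-100000000, 86969590, 73693510, 0, 0, 0, 852312696, -753584760, -637266671, 0, 0, 0], 0, 21283⟩,
    ⟨[-100000000, 86969590, 73693510, -424911189, 0, 0, 1278469045, 0, 0, 0, -754689318, -638200737], 0, 21283⟩,
    ⟨[-100000000, 84355630, 75554860, 0, 0, 0, 828129308, -715857730, -639779092, 0, 0, 0], 0, 45126⟩,
    ⟨[-100000000, 84355630, 75554860, -412854824, 0, 0, 1242193962, 0, 0, 0, -716906990, -640716840], 0, 45126⟩,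
    ⟨[-100000000, 80704810, 78187430, 0, 0, 0, 794740842, -664721203, -642529943, 0, 0, 0], 0, 95033⟩,
    ⟨[-100000000, 80704810, 78187430, -396209369, 0, 0, 1192111263, 0, 0, 0, -665695510, -643471724], 0, 95033⟩,
    ⟨[-100000000, 78863620, 79502900, 0, 0, 0, 752337209, -624356580, -627782424, 0, 0, 0], 0, 187836⟩,
    ⟨[-100000000, 78863620, 79502900, -375069501, 0, 0, 1128505813, 0, 0, 0, -625271724, -628702589], 0, 187836⟩,
    ⟨[-100000000, 81995810, 77124320, 0, 0, 0, 698555767, -618212779, -577076030, 0, 0, 0], 0, 372676⟩,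
    ⟨[-100000000, 81995810, 77124320, -348257351, 0, 0, 1047833651, 0, 0, 0, -619118917, -577921873], 0, 372676⟩,
    ⟨[-100000000, 90931820, 70693910, 0, 0, 0, 624221387, -638773515, -487543365, 0, 0, 0], 0, 683675⟩,
    ⟨[-100000000, 90931820, 70693910, -311198757, 0, 0, 936332080, 0, 0, 0, -639709789, -488257976], 0, 683675⟩,
    ⟨[-100000000, 108954690, 58708500, 0, 0, 0, 499733141, -669145699, -350547733, 0, 0, 0], 0, 1238626⟩,
    ⟨[-100000000, 108954690, 58708500, -249136501, 0, 0, 749599712, 0, 0, 0, -670126491, -351061544], 0, 1238626⟩,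
    ⟨[-98415070, 200000000, 10369700, 0, 0, 0, 153066159, -893770095, -44208204, 0, 0, 0], 0, 4771192⟩,
    ⟨[-98415070, 200000000, 10369700, -76309463, 0, 0, 229599239, 0, 0, 0, -895080128, -44273002], 0, 4771192⟩,
    ⟨[0, 0, 0, 0, 0, 0, -899121738, 0, 0, 0, 0, 0], 0, 144294900⟩,
    ⟨[0, 0, 0, 0, 0, 0, 0, 0, 0, -900439615, 0, 0], 0, 144294900⟩]

/-- All indices. -/
def ids : List ℕ := [0, 1, 2, 3, 4, 5, 6, 7, 8, 9, 10, 11, 12, 13, 14, 15, 16, 17, 18, 19, 20, 21, 22, 23]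

theorem cfg_ok : cfgOk C = true := by decide +kernel

theorem ids_lt : ∀ i ∈ ids, i < C.vecs.length := by decide +kernel

end Vale.Agent.P154.Mid.R9.Cert
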